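import Vale.Agent.P011.Bdl.B2

/-!
Field-general algebra for rank one hermitian forms over local fields: comparison of
characteristic polynomials, matrices with different eigenvalues, coordinates of a hermitian form.
-/

open Matrix Polynomial TensorProduct Module

namespace Vale.Agent.P011.H929.E

theorem exists_common {K Ω L : Type} [Field K] [Field Ω] [Algebra K Ω] [Field L] [Algebra K L] :
    ∃ (M : Type) (_ : Field M) (i : Ω →+* M) (j : L →+* M),
      i.comp (algebraMap K Ω) = j.comp (algebraMap K L) := by
  obtain ⟨m, hm⟩ := Ideal.exists_maximal (Ω ⊗[K] L)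
  let _ : Field ((Ω ⊗[K] L) ⧸ m) := Ideal.Quotient.field m
  refine ⟨(Ω ⊗[K] L) ⧸ m, inferInstance,
    (Ideal.Quotient.mk m).comp (Algebra.TensorProduct.includeLeftRingHom),
    (Ideal.Quotient.mk m).comp (Algebra.TensorProduct.includeRight : L →ₐ[K] Ω ⊗[K] L).toRingHom, ?_⟩
  ext x
  simp only [RingHom.comp_apply, Algebra.TensorProduct.includeLeftRingHom_apply,
    AlgHom.toRingHom_eq_coe, RingHom.coe_coe, Algebra.TensorProduct.includeRight_apply]
  congr 1
  rw [Algebra.algebraMap_eq_smul_one, Algebra.algebraMap_eq_smul_one, TensorProduct.smul_tmul]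

theorem charpoly_eval {K D Ω M : Type} [Field K] [DivisionRing D] [Algebra K D]
    [FiniteDimensional K D] [Algebra.IsCentral K D] {n : ℕ} (hn : 0 < n)
    (hdeg : Module.finrank K D = n ^ 2) [Field Ω] [Algebra K Ω] [Field M] (i : Ω →+* M)
    (f : D →ₐ[K] Matrix (Fin n) (Fin n) Ω) (x : D) (c : K) :
    (((f x).charpoly.map i) ^ n).eval (i (algebraMap K Ω c)) =
      i (algebraMap K Ω (Algebra.norm K (algebraMap K D c - x))) := by
  rw [Vale.Agent.P011S.SF.norm_eq_det_pow hn hdeg f, eval_pow, eval_map_apply, ← map_pow,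
    Matrix.eval_charpoly]
  congr 3
  rw [map_sub, AlgHom.commutes]
  rfl

theorem eq_of_monic_pow {M : Type} [Field M] {P Q : M[X]} (hP : P.Monic) (hQ : Q.Monic) {n : ℕ}
    (hn : n ≠ 0) (h : P ^ n = Q ^ n) : P = Q := by
  have h1 : P ∣ Q := (UniqueFactorizationMonoid.pow_dvd_pow_iff_dvd hn).mp (dvd_of_eq h)
  have h2 : Q ∣ P := (UniqueFactorizationMonoid.pow_dvd_pow_iff_dvd hn).mp (dvd_of_eq h.symm)
  exact eq_of_monic_of_associated hP hQ (associated_of_dvd_dvd h1 h2)


section diag

variable {L : Type} [Field L]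

theorem aeval_diagonal {n : ℕ} (e : Fin n → L) (p : L[X]) :
    aeval (Matrix.diagonal e) p = Matrix.diagonal fun i => p.eval (e i) := by
  induction p using Polynomial.induction_on' with
  | add p q hp hq =>
    rw [map_add, hp, hq, Matrix.diagonal_add]
    congr 1
    funext i
    rw [eval_add]
  | monomial m a =>
    rw [aeval_monomial, Matrix.diagonal_pow, Matrix.algebraMap_eq_diagonal,
      Matrix.diagonal_mul_diagonal]
    congr 1
    funext i
    rw [eval_monomial]
    rfl

theorem aeval_conj {n : ℕ} {Z Q Δ : Matrix (Fin n) (Fin n) L} (h : Z * Q = Q * Δ) (p : L[X]) :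
    aeval Z p * Q = Q * aeval Δ p := by
  induction p using Polynomial.induction_on' with
  | add p q hp hq => rw [map_add, map_add, add_mul, mul_add, hp, hq]
  | monomial m a =>
    have h1 : Z ^ m * Q = Q * Δ ^ m := by
      induction m with
      | zero => simp
      | succ m ih => rw [pow_succ, mul_assoc, h, ← mul_assoc, ih, mul_assoc, ← pow_succ]
    rw [aeval_monomial, aeval_monomial, mul_assoc, h1, ← mul_assoc, ← mul_assoc,
      Algebra.commutes a Q]

/-- A matrix with different eigenvalues. -/
theorem of_conj_diagonal {n : ℕ} {Z Q : Matrix (Fin n) (Fin n) L} {e : Fin n → L}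
    (he : Function.Injective e) (hQ : IsUnit Q) (h : Z * Q = Q * Matrix.diagonal e) :
    LinearIndependent L (fun i : Fin n => Z ^ (i : ℕ)) ∧
      aeval Z (∏ i, (X - C (e i))) = 0 := by
  constructor
  · rw [Fintype.linearIndependent_iff]
    intro a ha
    let p : L[X] := ∑ i : Fin n, C (a i) * X ^ (i : ℕ)
    have hp : aeval Z p = 0 := by
      rw [← ha, map_sum]
      refine Finset.sum_congr rfl fun i _ => ?_
      rw [map_mul, aeval_C, map_pow, aeval_X, Algebra.smul_def]
    have h1 : Q * aeval (Matrix.diagonal e) p = 0 := by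
      rw [← aeval_conj h, hp, zero_mul]
    have h2 : aeval (Matrix.diagonal e) p = 0 := hQ.mul_left_cancel (by rw [h1, mul_zero])
    rw [aeval_diagonal] at h2
    have hp0 : p = 0 := by
      rcases Nat.eq_zero_or_pos n with h0 | h0
      · subst h0
        exact Finset.sum_empty
      apply Polynomial.eq_zero_of_natDegree_lt_card_of_eval_eq_zero p he
      · intro i
        have h3 := congrFun (congrFun h2 i) i
        rwa [Matrix.diagonal_apply_eq, Matrix.zero_apply] at h3
      · rw [Fintype.card_fin]
        refine lt_of_le_of_lt (natDegree_sum_le_of_forall_le (n := n - 1) _ _ fun i _ => ?_)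
          (Nat.sub_lt h0 one_pos)
        exact (natDegree_C_mul_X_pow_le _ _).trans (by omega)
    intro i
    have h3 := congrArg (fun q : L[X] => q.coeff (i : ℕ)) hp0
    simp only [p, finsetSum_coeff, coeff_C_mul, coeff_X_pow, coeff_zero] at h3
    rw [Finset.sum_eq_single i] at h3
    · simpa using h3
    · intro j _ hj
      rw [if_neg (fun h => hj (Fin.ext h.symm)), mul_zero]
    · intro h; exact absurd (Finset.mem_univ i) h
  · apply hQ.mul_right_cancel
    rw [aeval_conj h, aeval_diagonal, zero_mul]
    have h1 : (fun i => eval (e i) (∏ i, (X - C (e i)))) = 0 := by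
      funext i
      rw [eval_prod]
      apply Finset.prod_eq_zero (Finset.mem_univ i)
      rw [eval_sub, eval_X, eval_C, sub_self]
    rw [h1]
    have h2 : Matrix.diagonal (0 : Fin n → L) = 0 := Matrix.diagonal_zero
    rw [h2, mul_zero]

end diag

/-- Injective choice from infinite sets. -/
theorem exists_injective_choice {α : Type} : ∀ (n : ℕ) (S : Fin n → Set α), (∀ i, (S i).Infinite) →
    ∃ r : Fin n → α, Function.Injective r ∧ ∀ i, r i ∈ S i := by
  intro n
  induction n with
  | zero => exact fun S _ => ⟨fun i => i.elim0, fun i => i.elim0, fun i => i.elim0⟩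
  | succ n ih =>
    intro S hS
    obtain ⟨r, hr, hrS⟩ := ih (fun i => S i.succ) fun i => hS i.succ
    obtain ⟨a, ha, har⟩ := ((hS 0).sdiff (Set.finite_range r)).nonempty
    refine ⟨Fin.cons a r, ?_, ?_⟩
    · rw [Fin.cons_injective_iff]
      exact ⟨har, hr⟩
    · intro i
      refine Fin.cases ?_ (fun j => ?_) i
      · exact ha
      · exact hrS j


/-- A coset of the squares is infinite. -/
theorem infinite_sq {k : Type} [Field k] [Infinite k] (a : kˣ) :
    (Set.range fun m : kˣ => a * m ^ 2).Infinite := by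
  intro hf
  have h1 : (Set.univ : Set kˣ).Finite := by
    refine Set.Finite.subset (s := ⋃ b ∈ Set.range (fun m : kˣ => a * m ^ 2),
      {x : kˣ | a * x ^ 2 = b}) (hf.biUnion ?_) ?_
    · rintro _ ⟨m, rfl⟩
      refine Set.Finite.subset (s := {m, -m}) (Set.toFinite _) ?_
      intro x hx
      have h2 : a * x ^ 2 = a * m ^ 2 := hx
      have h3 := congrArg Units.val (mul_left_cancel h2)
      rw [Units.val_pow_eq_pow_val, Units.val_pow_eq_pow_val, sq_eq_sq_iff_eq_or_eq_neg] at h3
      rcases h3 with h | h
      · exact Or.inl (Units.ext h)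
      · exact Or.inr (Units.ext (by rw [h, Units.val_neg]))
    · intro x _
      simp only [Set.mem_iUnion]
      exact ⟨_, ⟨x, rfl⟩, rfl⟩
  have : Finite kˣ := Set.finite_univ_iff.mp h1
  have h2 : Finite k := by
    have : Finite {x : k // x ≠ 0} := Finite.of_injective
      (fun x => Units.mk0 x.1 x.2) (fun x y h => Subtype.ext (congrArg Units.val h))
    have h3 : (({0} : Set k)ᶜ).Finite := by
      rw [← Set.finite_coe_iff]
      exact this
    exact Set.finite_univ_iff.mp (by
      rw [← Set.union_compl_self ({0} : Set k)]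
      exact (Set.finite_singleton 0).union h3)
  exact not_finite k

section coord

variable {k D : Type} [Field k] [DivisionRing D] [StarRing D] [Algebra k D]

theorem coord_form {F : Type} [Field F] [Algebra k F] {N : ℕ} (B : Module.Basis (Fin N) k D)
    (σ : D →ₗ[k] D) (hσ : ∀ x, σ x = star x) (e : D) (c : Fin N → F) (j : Fin N) :
    (Algebra.TensorProduct.basis F B).repr
      (σ.baseChange F (∑ i, c i ⊗ₜ B i) * (1 ⊗ₜ e) * (∑ i, c i ⊗ₜ B i)) j =
      ∑ i, ∑ l, c i * c l * algebraMap k F (B.repr (star (B i) * e * B l) j) := by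
  rw [map_sum, Finset.sum_mul, Finset.sum_mul, map_sum, Finsupp.finsetSum_apply]
  refine Finset.sum_congr rfl fun i _ => ?_
  rw [Finset.mul_sum, map_sum, Finsupp.finsetSum_apply]
  refine Finset.sum_congr rfl fun l _ => ?_
  rw [LinearMap.baseChange_tmul, hσ, Algebra.TensorProduct.tmul_mul_tmul,
    Algebra.TensorProduct.tmul_mul_tmul, mul_one, Algebra.TensorProduct.basis_repr_tmul]
  rw [Finsupp.smul_apply, Finsupp.mapRange_apply, smul_eq_mul]

end coord

end Vale.Agent.P011.H929.E
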