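import Vale.Agent.P011.H929.E.Idx2
import Vale.Agent.P011.H929.FFq

/-!
The completion of a global function field of odd characteristic at a place is a local field of odd
residue characteristic; norm groups.
-/

set_option linter.unusedSectionVars false

namespace Vale.Agent.P011.H929.E

open Vale.Agent.P011.Even Polynomial Vale.Agent.P011.H738 Vale.Agent.P011.H271
open Vale.Agent.P011.Hey Vale.Agent.P011.Hey.H63

variable {k : Type} [Field k] [GFF k]

theorem norm_two (h2 : (2 : k) ≠ 0) (v : Place k) : ‖(2 : v.comp)‖ = 1 := by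
  rw [← map_ofNat (algebraMap k v.comp) 2, norm_alg, Vale.Agent.P011.H929.FF.abv_two h2]

/-- Elements close to one are squares in the completion. -/
theorem sqrt_comp (h2 : (2 : k) ≠ 0) (v : Place k) {x : v.comp} (hx : ‖x - 1‖ < 1) :
    IsSquare x := by
  have hx1 : ‖(1 : v.comp) - x‖ < 1 := by
    rw [← norm_neg, neg_sub]
    exact hx
  have hn2 := norm_two h2 v
  let a0 : H63.OK v.comp := ⟨1 - x, hx1.le⟩
  obtain ⟨z, -, hz⟩ := H63.hensel (K := v.comp) (X ^ 2 + C 2 * X + C a0) (by
    have e : (X ^ 2 + C 2 * X + C a0 : (H63.OK v.comp)[X]).coeff 0 = a0 := by simp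
    rw [e]
    exact hx1) (by
    have e : (X ^ 2 + C 2 * X + C a0 : (H63.OK v.comp)[X]).coeff 1 = 2 := by
      simp [coeff_C, coeff_X_pow]
    rw [e]
    exact hn2)
  refine ⟨1 + z, ?_⟩
  have h3 := congrArg (fun y : H63.OK v.comp => (y : v.comp)) hz
  simp only [eval_add, eval_pow, eval_X, eval_mul, eval_C] at h3
  have h4 : ((z : v.comp)) ^ 2 + 2 * z + (1 - x) = 0 := h3
  linear_combination -h4

/-- The norm of an element of the completion is the norm of a nearby element. -/
theorem exists_norm_eq (v : Place k) {x : v.comp} (hx : x ≠ 0) {ε : ℝ} (hε : 0 < ε) :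
    ∃ a : k, a ≠ 0 ∧ v.abv a = ‖x‖ ∧ ‖x - algebraMap k v.comp a‖ < ε := by
  have hpos : 0 < ‖x‖ := norm_pos_iff.mpr hx
  obtain ⟨a, ha⟩ := dense_alg v x (lt_min hε hpos)
  have h1 := ha.trans_le (min_le_right _ _)
  have h3 : ‖algebraMap k v.comp a‖ = ‖x‖ := by
    have e : algebraMap k v.comp a = x - (x - algebraMap k v.comp a) := by ring
    rw [e]
    exact nsub_big h1
  have h4 : v.abv a = ‖x‖ := by rw [← norm_alg, h3]
  refine ⟨a, ?_, h4, ha.trans_le (min_le_left _ _)⟩
  rintro rfl
  rw [map_zero] at h4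
  exact hpos.ne h4

theorem oddLoc (h2 : (2 : k) ≠ 0) (v : Place k) : OddLoc v.comp where
  ultra := isUltra v
  two := norm_two h2 v
  sqrt := fun x hx => sqrt_comp h2 v hx
  disc := by
    obtain ⟨-, ⟨x, hx⟩, hm⟩ := v.normalized
    set q : ℝ := (Nat.card (integers v.abv v.nonarch ⧸ maxIdeal v.abv v.nonarch) : ℝ) with hq
    have hq1 : 1 < q := one_lt_qq' v
    have hx0 : x ≠ 0 := by
      rintro rfl
      rw [map_zero] at hx
      rw [← hx] at hq1
      exact absurd hq1 (by norm_num)
    have hn : ‖(algebraMap k v.comp x)⁻¹‖ = q⁻¹ := by rw [norm_inv, norm_alg, hx]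
    refine ⟨(algebraMap k v.comp x)⁻¹, inv_ne_zero ((_root_.map_ne_zero _).mpr hx0), ?_, ?_⟩
    · rw [hn]
      exact inv_lt_one_of_one_lt₀ hq1
    · intro y hy
      obtain ⟨a, ha, hay, -⟩ := exists_norm_eq v hy one_pos
      obtain ⟨m, hm'⟩ := hm a ha
      refine ⟨-m, ?_⟩
      rw [hn, ← hay, hm', inv_zpow', neg_neg]
  finite := by
    classical
    obtain ⟨R, hR⟩ := ball_reps v 1 (ε := 1 / 2) (by norm_num)
    refine ⟨R.image (algebraMap k v.comp), fun x hx => ?_⟩
    obtain ⟨a, ha⟩ := dense_alg v x (ε := 1 / 2) (by norm_num)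
    have h1 : v.abv a ≤ 1 := by
      rw [← norm_alg]
      have e : algebraMap k v.comp a = x - (x - algebraMap k v.comp a) := by ring
      rw [e]
      exact (nsub_le _ _).trans (max_le hx (ha.le.trans (by norm_num)))
    obtain ⟨r, hr, hr2⟩ := hR a h1
    refine ⟨_, Finset.mem_image_of_mem _ hr, ?_⟩
    have e : x - algebraMap k v.comp r = (x - algebraMap k v.comp a) +
        algebraMap k v.comp (a - r) := by rw [map_sub]; ring
    rw [e]
    refine (IsUltrametricDist.norm_add_le_max _ _).trans_lt (max_lt (ha.trans (by norm_num)) ?_)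
    rw [norm_alg]
    exact hr2.trans_lt (by norm_num)

/-- **The norm index theorem** in the completion. -/
theorem indexTwo (h2 : (2 : k) ≠ 0) (v : Place k) : IndexTwo v.comp := (oddLoc h2 v).indexTwo

/-- Every element of the completion is a global element times a square. -/
theorem exists_glob (h2 : (2 : k) ≠ 0) (v : Place k) (x : v.compˣ) :
    ∃ (a : kˣ) (u : v.compˣ), x = Units.map (algebraMap k v.comp : k →* v.comp) a * u ^ 2 := by
  obtain ⟨a, ha0, -, ha⟩ := exists_norm_eq v x.ne_zero (ε := ‖(x : v.comp)‖)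
    (norm_pos_iff.mpr x.ne_zero)
  have hA : algebraMap k v.comp a ≠ 0 := (_root_.map_ne_zero _).mpr ha0
  obtain ⟨z, hz⟩ := sqrt_comp h2 v (x := algebraMap k v.comp a / x) (by
    have e : algebraMap k v.comp a / x - 1 = -(x - algebraMap k v.comp a) / x := by
      field_simp
      ring
    rw [e, norm_div, norm_neg, div_lt_one (norm_pos_iff.mpr x.ne_zero)]
    exact ha)
  have hz0 : z ≠ 0 := by
    rintro rfl
    rw [mul_zero] at hz
    exact div_ne_zero hA x.ne_zero hz
  refine ⟨Units.mk0 a ha0, (Units.mk0 z hz0)⁻¹, Units.ext ?_⟩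
  have hx0 := x.ne_zero
  rw [div_eq_iff hx0] at hz
  push_cast
  change (x : v.comp) = algebraMap k v.comp a * _
  rw [Units.val_mk0, hz]
  field_simp

end Vale.Agent.P011.H929.E
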