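import Vale.Agent.P011.H929.E.Alg
import Vale.Agent.P011.Even.LocHerm

/-!
Hermitian matrices over a quadratic extension of a local field of characteristic different from
two; comparison of reduced norms.
-/

open Matrix Polynomial TensorProduct Module

namespace Vale.Agent.P011.H929.E

open Vale.Agent.P011.Even

/-- Hermitian matrices over a local quadratic extension are classified by rank and
discriminant. -/
theorem hermitian_class {F L : Type} [Field F] (hF : IndexTwo F) [Field L]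
    [Algebra F L] [StarRing L] (h2 : (2 : L) ≠ 0)
    (hfix : ∀ x : L, star x = x ↔ x ∈ Set.range (algebraMap F L))
    {d : Fˣ} (hd : ¬ IsSquare (d : F)) {s : L}
    (hs : s ^ 2 = algebraMap F L d) (hss : star s = -s) {n : ℕ}
    (G H : Matrix (Fin n) (Fin n) L) (hG : G.conjTranspose = G) (hH : H.conjTranspose = H)
    (hG0 : G.det ≠ 0) (hH0 : H.det ≠ 0) (hdisc : ∃ z : L, H.det = G.det * (z * star z)) :
    ∃ t : Matrix (Fin n) (Fin n) L, t.conjTranspose * G * t = H := by
  have hGs : star G.det = G.det := by rw [← Matrix.det_conjTranspose, hG]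
  obtain ⟨z, hz⟩ := hdisc
  obtain ⟨Q, -, hQ⟩ := herm_class h2 (binUniv hF hfix hd hs hss) G H hG hH hG0 hH0
    ⟨G.det * z, by rw [hz, star_mul', hGs]; ring⟩
  exact ⟨Q.conjTranspose, by rw [Matrix.conjTranspose_conjTranspose]; exact hQ⟩

section compare

/-- The reduced norms computed in two splitting fields agree. -/
theorem det_compare_gen {K D Ω L M : Type} [Field K] [Infinite K] [DivisionRing D] [Algebra K D]
    [FiniteDimensional K D] [Algebra.IsCentral K D] {n : ℕ} (hn : 0 < n)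
    (hdeg : Module.finrank K D = n ^ 2) [Field Ω] [Algebra K Ω] [Field L] [Algebra K L]
    (f : D →ₐ[K] Matrix (Fin n) (Fin n) Ω) (g : D →ₐ[K] Matrix (Fin n) (Fin n) L) (x : D)
    [Field M] (i : Ω →+* M) (j : L →+* M)
    (hij : i.comp (algebraMap K Ω) = j.comp (algebraMap K L)) :
    i (f x).det = j (g x).det := by
  have hij' : ∀ c : K, i (algebraMap K Ω c) = j (algebraMap K L c) := fun c =>
    RingHom.congr_fun hij c
  have hpow : ((f x).charpoly.map i) ^ n = ((g x).charpoly.map j) ^ n := by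
    apply Polynomial.eq_of_infinite_eval_eq
    refine Set.Infinite.mono (s := Set.range fun c : K => i (algebraMap K Ω c)) ?_ ?_
    · rintro _ ⟨c, rfl⟩
      change eval (i (algebraMap K Ω c)) _ = eval (i (algebraMap K Ω c)) _
      rw [charpoly_eval hn hdeg, hij' c, charpoly_eval hn hdeg, hij']
    · apply Set.infinite_range_of_injective
      exact (i.injective.comp (algebraMap K Ω).injective)
  have heq := eq_of_monic_pow ((f x).charpoly_monic.map i) ((g x).charpoly_monic.map j)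
    hn.ne' hpow
  have h0 := congrArg (Polynomial.eval (0 : M)) heq
  have e1 : ∀ {Ω' : Type} [Field Ω'] (i' : Ω' →+* M) (A : Matrix (Fin n) (Fin n) Ω'),
      (A.charpoly.map i').eval 0 = (-1) ^ n * i' A.det := by
    intro Ω' _ i' A
    have h1 := Polynomial.eval_map_apply (f := i') (p := A.charpoly) (x := (0 : Ω'))
    rw [map_zero] at h1
    rw [h1, Matrix.eval_charpoly, map_zero, zero_sub, Matrix.det_neg, Fintype.card_fin, map_mul,
      map_pow, map_neg, map_one]
  rw [e1, e1] at h0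
  have h1 : ((-1 : M)) ^ n ≠ 0 := pow_ne_zero _ (neg_ne_zero.mpr one_ne_zero)
  exact mul_left_cancel₀ h1 h0

/-- The reduced norms computed in two splitting fields agree. -/
theorem det_compare {K D Ω L : Type} [Field K] [Infinite K] [DivisionRing D] [Algebra K D]
    [FiniteDimensional K D] [Algebra.IsCentral K D] {n : ℕ} (hn : 0 < n)
    (hdeg : Module.finrank K D = n ^ 2) [Field Ω] [Algebra K Ω] [Field L] [Algebra K L]
    (f : D →ₐ[K] Matrix (Fin n) (Fin n) Ω) (g : D →ₐ[K] Matrix (Fin n) (Fin n) L) (x : D)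
    {ν : K} (h : (f x).det = algebraMap K Ω ν) : (g x).det = algebraMap K L ν := by
  obtain ⟨M, _, i, j, hij⟩ := exists_common (K := K) (Ω := Ω) (L := L)
  have h1 := det_compare_gen hn hdeg f g x i j hij
  rw [h] at h1
  exact (j.injective (((RingHom.congr_fun hij ν).symm.trans h1))).symm

end compare

/-- Two hermitian matrices can be brought into a position where the quotient has prescribed
different eigenvalues. -/
theorem diag_pair {F L : Type} [Field F] [Field L] [Algebra F L] [StarRing L] (h2 : (2 : L) ≠ 0)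
    (hU : BinUniv L) (hfix : ∀ x : L, star x = x ↔ x ∈ Set.range (algebraMap F L))
    {n : ℕ} (H0 H2 : Matrix (Fin n) (Fin n) L) (h0 : H0ᴴ = H0)
    (h2' : H2ᴴ = H2) (hd0 : H0.det ≠ 0) (hd2 : H2.det ≠ 0) :
    ∃ ρ : Fin n → Fˣ, ∀ l : Fin n → Fˣ, Function.Injective (fun i => ρ i * l i ^ 2) →
      ∃ Y : Matrix (Fin n) (Fin n) L,
        LinearIndependent L (fun i : Fin n => (H0⁻¹ * Y * H2 * Yᴴ) ^ (i : ℕ)) ∧
        aeval (H0⁻¹ * Y * H2 * Yᴴ)
          (∏ i, (X - C (algebraMap F L (ρ i * l i ^ 2 : Fˣ)))) = 0 := by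
  have hdiag : ∀ H : Matrix (Fin n) (Fin n) L, Hᴴ = H → H.det ≠ 0 →
      ∃ (P : Matrix (Fin n) (Fin n) L) (δ : Fin n → Fˣ), IsUnit P ∧
        P * H * Pᴴ = Matrix.diagonal (fun i => algebraMap F L (δ i)) := by
    intro H hH hd
    rcases Nat.eq_zero_or_pos n with rfl | hn
    · exact ⟨1, fun _ => 1, isUnit_one, by ext i; exact i.elim0⟩
    obtain ⟨m, rfl⟩ : ∃ m, n = m + 1 := ⟨n - 1, by omega⟩
    obtain ⟨P, δ, hP, hPH⟩ := exists_normal h2 hU H hH hd
    have hδ : δ = (P * H * Pᴴ).det := by rw [hPH, det_diag_last]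
    have hdetH : star H.det = H.det := by rw [← Matrix.det_conjTranspose, hH]
    obtain ⟨δ', hδ'⟩ := (hfix δ).mp (by
      rw [hδ, Matrix.det_mul, Matrix.det_mul, Matrix.det_conjTranspose, star_mul', star_mul',
        star_star, hdetH]
      ring)
    have hδ0 : δ' ≠ 0 := by
      rintro rfl
      rw [map_zero] at hδ'
      rw [← hδ', Matrix.det_mul, Matrix.det_mul, Matrix.det_conjTranspose] at hδ
      exact mul_ne_zero (mul_ne_zero hP hd) (star_ne_zero.mpr hP) hδ.symm
    refine ⟨P, fun i => if i = Fin.last m then Units.mk0 δ' hδ0 else 1,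
      (Matrix.isUnit_iff_isUnit_det P).mpr (isUnit_iff_ne_zero.mpr hP), ?_⟩
    rw [hPH]
    congr 1
    funext i
    by_cases hi : i = Fin.last m
    · simp only [hi, if_true, Units.val_mk0, hδ']
    · simp only [hi, if_false, Units.val_one, map_one]
  obtain ⟨P0, δ0, ⟨U0, rfl⟩, hδ0⟩ := hdiag H0 h0 hd0
  obtain ⟨P2, δ2, ⟨U2, rfl⟩, hδ2⟩ := hdiag H2 h2' hd2
  refine ⟨fun i => δ2 i / δ0 i, fun l hl => ?_⟩
  let Λ : Matrix (Fin n) (Fin n) L := Matrix.diagonal fun i => algebraMap F L (l i)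
  have hΛ : Λᴴ = Λ := by
    rw [Matrix.diagonal_conjTranspose]
    congr 1
    funext i
    exact (hfix _).mpr ⟨_, rfl⟩
  let V0 : Matrix (Fin n) (Fin n) L := ((U0⁻¹ : (Matrix (Fin n) (Fin n) L)ˣ) : _)
  have hV0 : V0 * U0 = 1 := U0.inv_mul
  have hV0' : (U0 : Matrix (Fin n) (Fin n) L) * V0 = 1 := U0.mul_inv
  have hV0h : (U0 : Matrix (Fin n) (Fin n) L)ᴴ * V0ᴴ = 1 := by
    rw [← Matrix.conjTranspose_mul, hV0, Matrix.conjTranspose_one]
  have hV0h' : V0ᴴ * (U0 : Matrix (Fin n) (Fin n) L)ᴴ = 1 := by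
    rw [← Matrix.conjTranspose_mul, hV0', Matrix.conjTranspose_one]
  let Δ0i : Matrix (Fin n) (Fin n) L := Matrix.diagonal fun i => (algebraMap F L (δ0 i))⁻¹
  have hne : ∀ u : Fˣ, algebraMap F L u ≠ 0 := fun u => (_root_.map_ne_zero _).mpr u.ne_zero
  have hΔ0 : Δ0i * Matrix.diagonal (fun i => algebraMap F L (δ0 i)) = 1 := by
    rw [Matrix.diagonal_mul_diagonal, ← Matrix.diagonal_one]
    congr 1
    funext i
    exact inv_mul_cancel₀ (hne _)
  have hinv : H0⁻¹ = (U0 : Matrix (Fin n) (Fin n) L)ᴴ * Δ0i * U0 := by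
    apply Matrix.inv_eq_left_inv
    have h1 : H0 = V0 * Matrix.diagonal (fun i => algebraMap F L (δ0 i)) * V0ᴴ := by
      rw [← hδ0]
      calc H0 = (V0 * U0) * H0 * ((U0 : Matrix (Fin n) (Fin n) L)ᴴ * V0ᴴ) := by
            rw [hV0, hV0h, one_mul, mul_one]
        _ = _ := by simp only [mul_assoc]
    rw [h1]
    calc (U0 : Matrix (Fin n) (Fin n) L)ᴴ * Δ0i * U0 *
          (V0 * Matrix.diagonal (fun i => algebraMap F L (δ0 i)) * V0ᴴ)
        = (U0 : Matrix (Fin n) (Fin n) L)ᴴ * (Δ0i * ((U0 * V0) *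
          Matrix.diagonal (fun i => algebraMap F L (δ0 i)))) * V0ᴴ := by simp only [mul_assoc]
      _ = 1 := by rw [hV0', one_mul, hΔ0, mul_one, hV0h]
  refine ⟨V0 * Λ * U2, of_conj_diagonal (Q := (U0 : Matrix (Fin n) (Fin n) L)ᴴ) ?_ ?_ ?_⟩
  · intro i j hij
    exact hl (Units.ext ((algebraMap F L).injective hij))
  · exact ⟨⟨_, _, hV0h, hV0h'⟩, rfl⟩
  · rw [hinv, Matrix.conjTranspose_mul, Matrix.conjTranspose_mul, hΛ]
    calc (U0 : Matrix (Fin n) (Fin n) L)ᴴ * Δ0i * U0 * (V0 * Λ * U2) * H2 *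
          ((U2 : Matrix (Fin n) (Fin n) L)ᴴ * (Λ * V0ᴴ)) * (U0 : Matrix (Fin n) (Fin n) L)ᴴ
        = (U0 : Matrix (Fin n) (Fin n) L)ᴴ * (Δ0i * ((U0 * V0) * (Λ * (U2 * H2 *
          (U2 : Matrix (Fin n) (Fin n) L)ᴴ) * (Λ * (V0ᴴ *
            (U0 : Matrix (Fin n) (Fin n) L)ᴴ))))) := by simp only [mul_assoc]
      _ = _ := by
        rw [hV0', one_mul, hV0h', mul_one, hδ2, Matrix.diagonal_mul_diagonal,
          Matrix.diagonal_mul_diagonal, Matrix.diagonal_mul_diagonal]
        congr 2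
        funext i
        rw [Units.val_mul, Units.val_div_eq_div_val, Units.val_pow_eq_pow_val, map_mul, map_div₀,
          map_pow]
        have := hne (δ0 i)
        field_simp

end Vale.Agent.P011.H929.E
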