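import Vale.Agent.P011.Even.LocDefs

/-!
The norm groups of the quadratic extensions of a local field of odd residue characteristic.
-/

set_option linter.unusedSectionVars false

namespace Vale.Agent.P011.H929.E

open Vale.Agent.P011.Even Polynomial

/-- A nonarchimedean local field of odd residue characteristic. -/
structure OddLoc (F : Type) [NormedField F] : Prop where
  ultra : IsUltrametricDist F
  two : ‖(2 : F)‖ = 1
  sqrt : ∀ x : F, ‖x - 1‖ < 1 → IsSquare x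
  disc : ∃ ϖ : F, ϖ ≠ 0 ∧ ‖ϖ‖ < 1 ∧ ∀ x : F, x ≠ 0 → ∃ m : ℤ, ‖x‖ = ‖ϖ‖ ^ m
  finite : ∃ T : Finset F, ∀ x : F, ‖x‖ ≤ 1 → ∃ t ∈ T, ‖x - t‖ < 1

section alg

variable {F : Type} [Field F]

theorem LN_mul_sq (a u : Fˣ) : LN (a * u ^ 2) = LN a := by
  ext b
  constructor
  · rintro ⟨x, y, h⟩
    exact ⟨x, u * y, by rw [h]; push_cast; ring⟩
  · rintro ⟨x, y, h⟩
    refine ⟨x, y / u, ?_⟩
    rw [h]
    push_cast
    have : (u : F) ≠ 0 := u.ne_zero
    field_simp

theorem sq_mem_LN (a u : Fˣ) : u ^ 2 ∈ LN a :=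
  ⟨u, 0, by push_cast; ring⟩

theorem isSquare_mem_LN (a : Fˣ) {u : Fˣ} (hu : IsSquare (u : F)) : u ∈ LN a := by
  obtain ⟨z, hz⟩ := hu
  exact ⟨z, 0, by rw [hz]; ring⟩

/-- Everything is a norm if `a` is a square. -/
theorem LN_of_isSquare (h2 : (2 : F) ≠ 0) {a : Fˣ} (ha : IsSquare (a : F)) : LN a = ⊤ := by
  rw [eq_top_iff]
  rintro b -
  obtain ⟨c, hc⟩ := ha
  have hc0 : c ≠ 0 := by
    rintro rfl
    exact a.ne_zero (by rw [hc, zero_mul])
  refine ⟨(b + 1) / 2, (b - 1) / (2 * c), ?_⟩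
  rw [hc]
  field_simp
  ring

/-- The symmetry of the norm symbol. -/
theorem LN_symm (h2 : (2 : F) ≠ 0) {a b : Fˣ} (h : b ∈ LN a) : a ∈ LN b := by
  obtain ⟨x, y, h⟩ := h
  by_cases hy : y = 0
  · have : IsSquare (b : F) := ⟨x, by rw [h, hy]; ring⟩
    rw [LN_of_isSquare h2 this]
    trivial
  · refine ⟨x / y, 1 / y, ?_⟩
    rw [h]
    field_simp
    ring

theorem LN_symm_iff (h2 : (2 : F) ≠ 0) {a b : Fˣ} : b ∈ LN a ↔ a ∈ LN b :=
  ⟨LN_symm h2, LN_symm h2⟩

end alg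

section res

theorem nsub_le {F : Type} [NormedField F] [IsUltrametricDist F] (x y : F) :
    ‖x - y‖ ≤ max ‖x‖ ‖y‖ := by
  rw [sub_eq_add_neg, ← norm_neg y]
  exact IsUltrametricDist.norm_add_le_max _ _

variable (F : Type) [NormedField F] [IsUltrametricDist F]

/-- The ring of integers. -/
def OO : Subring F where
  carrier := {x | ‖x‖ ≤ 1}
  mul_mem' := fun {x y} hx hy => by
    change ‖x * y‖ ≤ 1
    rw [norm_mul]
    exact mul_le_one₀ hx (norm_nonneg _) hy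
  one_mem' := by
    change ‖(1 : F)‖ ≤ 1
    rw [norm_one]
  add_mem' := fun {x y} hx hy => (IsUltrametricDist.norm_add_le_max x y).trans (max_le hx hy)
  zero_mem' := by
    change ‖(0 : F)‖ ≤ 1
    rw [norm_zero]
    exact zero_le_one
  neg_mem' := fun {x} hx => by
    change ‖-x‖ ≤ 1
    rw [norm_neg]
    exact hx

/-- The maximal ideal. -/
def mm : Ideal (OO F) where
  carrier := {x | ‖(x : F)‖ < 1}
  add_mem' := fun {x y} hx hy =>
    (IsUltrametricDist.norm_add_le_max (x : F) y).trans_lt (max_lt hx hy)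
  zero_mem' := by
    change ‖((0 : OO F) : F)‖ < 1
    rw [ZeroMemClass.coe_zero, norm_zero]
    exact zero_lt_one
  smul_mem' := fun c x hx => by
    change ‖((c * x : OO F) : F)‖ < 1
    rw [Subring.coe_mul, norm_mul]
    exact mul_lt_one_of_nonneg_of_lt_one_right c.2 (norm_nonneg _) hx

variable {F}

theorem mem_mm {x : OO F} : x ∈ mm F ↔ ‖(x : F)‖ < 1 := Iff.rfl

instance : (mm F).IsMaximal := by
  rw [Ideal.isMaximal_iff]
  refine ⟨?_, ?_⟩
  · rw [mem_mm, OneMemClass.coe_one, norm_one]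
    exact lt_irrefl _
  · intro J x _ hx hxJ
    rw [mem_mm, not_lt] at hx
    have h1 : ‖(x : F)‖ = 1 := le_antisymm x.2 hx
    have hx0 : (x : F) ≠ 0 := by
      intro h0
      rw [h0, norm_zero] at h1
      exact zero_ne_one h1
    let y : OO F := ⟨(x : F)⁻¹, by
      change ‖(x : F)⁻¹‖ ≤ 1
      rw [norm_inv, h1, inv_one]⟩
    have h2 : y * x = 1 := Subtype.ext (inv_mul_cancel₀ hx0)
    rw [← h2]
    exact J.mul_mem_left y hxJ

/-- The residue field. -/
abbrev KK (F : Type) [NormedField F] [IsUltrametricDist F] : Type := OO F ⧸ mm F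

noncomputable instance : Field (KK F) := Ideal.Quotient.field (mm F)

theorem finite_KK (h : OddLoc F) : Finite (KK F) := by
  classical
  obtain ⟨T, hT⟩ := h.finite
  choose t ht ht' using fun x : OO F => hT (x : F) x.2
  refine Finite.of_injective (β := T) (fun q : KK F => ⟨t q.out, ht _⟩) ?_
  intro q q' hqq
  have h1 : t q.out = t q'.out := congrArg Subtype.val hqq
  rw [← Ideal.Quotient.mk_out q, ← Ideal.Quotient.mk_out q', Ideal.Quotient.eq, mem_mm]
  have e : ((q.out - q'.out : OO F) : F) = ((q.out : OO F) - t q.out) - ((q'.out : OO F) - t q'.out) := by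
    rw [AddSubgroupClass.coe_sub, h1]
    ring
  rw [e]
  exact (nsub_le _ _).trans_lt (max_lt (ht' _) (ht' _))

theorem two_KK (h : OddLoc F) : (2 : KK F) ≠ 0 := by
  intro h0
  have h1 : Ideal.Quotient.mk (mm F) 2 = 0 := by rw [map_ofNat]; exact h0
  rw [Ideal.Quotient.eq_zero_iff_mem, mem_mm] at h1
  have h2 := h.two
  have e : (((2 : OO F)) : F) = 2 := rfl
  rw [e, h2] at h1
  exact lt_irrefl _ h1

/-- The residue of an integral element. -/
noncomputable def rs (x : F) (hx : ‖x‖ ≤ 1) : KK F := Ideal.Quotient.mk (mm F) ⟨x, hx⟩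

theorem rs_eq_iff {x y : F} (hx : ‖x‖ ≤ 1) (hy : ‖y‖ ≤ 1) : rs x hx = rs y hy ↔ ‖x - y‖ < 1 :=
  Ideal.Quotient.eq

theorem rs_eq_zero {x : F} (hx : ‖x‖ ≤ 1) : rs x hx = 0 ↔ ‖x‖ < 1 :=
  Ideal.Quotient.eq_zero_iff_mem

theorem rs_ne_zero {x : F} (hx : ‖x‖ = 1) : rs x hx.le ≠ 0 := by
  rw [Ne, rs_eq_zero, hx]
  exact lt_irrefl _

theorem exists_rs (q : KK F) : ∃ (x : F) (hx : ‖x‖ ≤ 1), rs x hx = q := by
  obtain ⟨x, rfl⟩ := Ideal.Quotient.mk_surjective q
  exact ⟨x, x.2, rfl⟩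

theorem norm_of_rs {x : F} {hx : ‖x‖ ≤ 1} (h : rs x hx ≠ 0) : ‖x‖ = 1 := by
  rw [Ne, rs_eq_zero, not_lt] at h
  exact le_antisymm hx h

theorem mul_le {x y : F} (hx : ‖x‖ ≤ 1) (hy : ‖y‖ ≤ 1) : ‖x * y‖ ≤ 1 := by
  rw [norm_mul]
  exact mul_le_one₀ hx (norm_nonneg _) hy

theorem rs_mul {x y : F} (hx : ‖x‖ ≤ 1) (hy : ‖y‖ ≤ 1) :
    rs (x * y) (mul_le hx hy) = rs x hx * rs y hy := by
  rw [rs, rs, rs, ← map_mul]
  rfl

/-- An element of norm one is a square if its residue is. -/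
theorem isSquare_iff_rs (h : OddLoc F) {u : F} (hu : ‖u‖ = 1) :
    IsSquare u ↔ IsSquare (rs u hu.le) := by
  constructor
  · rintro ⟨z, rfl⟩
    have hz : ‖z‖ = 1 := by
      rw [norm_mul, ← sq] at hu
      exact (pow_eq_one_iff_of_nonneg (norm_nonneg _) two_ne_zero).mp hu
    exact ⟨rs z hz.le, rs_mul hz.le hz.le⟩
  · rintro ⟨q, hq⟩
    obtain ⟨z, hz, rfl⟩ := exists_rs q
    have hz0 : rs z hz ≠ 0 := by
      intro h0
      rw [h0, zero_mul] at hq
      exact rs_ne_zero hu hq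
    have hz1 := norm_of_rs hz0
    have hzn : z ≠ 0 := by
      rintro rfl
      rw [norm_zero] at hz1
      exact zero_ne_one hz1
    rw [← rs_mul hz hz, rs_eq_iff] at hq
    obtain ⟨w, hw⟩ := h.sqrt (u / (z * z)) (by
      have e : u / (z * z) - 1 = (u - z * z) / (z * z) := by field_simp
      rw [e, norm_div, norm_mul, hz1, mul_one, div_one]
      exact hq)
    refine ⟨w * z, ?_⟩
    rw [div_eq_iff (mul_ne_zero hzn hzn)] at hw
    rw [hw]
    ring

end res

section finite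

variable {κ : Type} [Field κ] [Finite κ]

theorem ringChar_ne (h2 : (2 : κ) ≠ 0) : ringChar κ ≠ 2 := by
  intro h
  apply h2
  have := (ringChar.spec κ 2).mpr (by rw [h])
  exact_mod_cast this

theorem exists_nonsq (h2 : (2 : κ) ≠ 0) : ∃ a : κ, ¬ IsSquare a :=
  FiniteField.exists_nonsquare (ringChar_ne h2)

theorem sq_mul {a b : κ} (ha : ¬ IsSquare a) (hb : ¬ IsSquare b) :
    IsSquare (a * b) := by
  classical
  have := Fintype.ofFinite κ
  have ha0 : a ≠ 0 := by rintro rfl; exact ha ⟨0, by ring⟩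
  have hb0 : b ≠ 0 := by rintro rfl; exact hb ⟨0, by ring⟩
  rw [← quadraticChar_one_iff_isSquare (mul_ne_zero ha0 hb0), map_mul,
    (quadraticChar_neg_one_iff_not_isSquare).mpr ha, (quadraticChar_neg_one_iff_not_isSquare).mpr hb]
  norm_num

theorem exists_rep (h2 : (2 : κ) ≠ 0) {a : κ} (ha : a ≠ 0) (b : κ) :
    ∃ x y : κ, x ^ 2 - a * y ^ 2 = b := by
  have := Fintype.ofFinite κ
  have h3 : Fintype.card κ % 2 = 1 := FiniteField.odd_card_of_char_ne_two (ringChar_ne h2)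
  obtain ⟨x, y, h⟩ := FiniteField.exists_root_sum_quadratic (R := κ) (f := X ^ 2 - C b)
    (g := C (-a) * X ^ 2) (degree_X_pow_sub_C two_pos b)
    (by rw [degree_C_mul_X_pow 2 (neg_ne_zero.mpr ha)]; rfl) h3
  refine ⟨x, y, ?_⟩
  simp only [eval_sub, eval_pow, eval_X, eval_C, eval_mul] at h
  linear_combination h

end finite

end Vale.Agent.P011.H929.E
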