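import Vale.Agent.P011.H929.E.Idx

/-!
The norm groups of the quadratic extensions of a local field of odd residue characteristic have
index two.
-/

set_option linter.unusedSectionVars false

namespace Vale.Agent.P011.H929.E

open Vale.Agent.P011.Even Polynomial

section

variable {F : Type} [NormedField F] [IsUltrametricDist F]

theorem nadd_big {x y : F} (hxy : ‖y‖ < ‖x‖) : ‖x + y‖ = ‖x‖ := by
  rw [IsUltrametricDist.norm_add_eq_max_of_norm_ne_norm hxy.ne', max_eq_left hxy.le]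

theorem nsub_big {x y : F} (hxy : ‖y‖ < ‖x‖) : ‖x - y‖ = ‖x‖ := by
  rw [sub_eq_add_neg]
  exact nadd_big (by rwa [norm_neg])

theorem exists_unit_nonsq (h : OddLoc F) : ∃ e : F, ‖e‖ = 1 ∧ ¬ IsSquare e := by
  have := finite_KK h
  obtain ⟨q, hq⟩ := exists_nonsq (two_KK h)
  obtain ⟨e, he, rfl⟩ := exists_rs q
  have h0 : rs e he ≠ 0 := by
    intro h0
    rw [h0] at hq
    exact hq ⟨0, by ring⟩
  have h1 := norm_of_rs h0
  exact ⟨e, h1, fun h2 => hq ((isSquare_iff_rs h h1).mp h2)⟩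

theorem unit_mul (h : OddLoc F) {u w : F} (hu : ‖u‖ = 1) (hw : ‖w‖ = 1) (hus : ¬ IsSquare u)
    (hws : ¬ IsSquare w) : IsSquare (u * w) := by
  have := finite_KK h
  rw [isSquare_iff_rs h hu] at hus
  rw [isSquare_iff_rs h hw] at hws
  rw [isSquare_iff_rs h (by rw [norm_mul, hu, hw, mul_one])]
  have h1 := sq_mul hus hws
  rwa [← rs_mul] at h1

/-- A unit close to a unit which is represented is represented. -/
theorem close_rep (h : OddLoc F) {b c : F} (hb : ‖b‖ = 1) (hc : ‖c‖ ≤ 1) (hbc : ‖b - c‖ < 1) :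
    ∃ z : F, b = c * z ^ 2 := by
  have hc1 : ‖c‖ = 1 := by
    rw [← hb]
    have e : c = b - (b - c) := by ring
    rw [e]
    exact nsub_big (by rwa [hb])
  have hc0 : c ≠ 0 := by
    rintro rfl
    rw [norm_zero] at hc1
    exact zero_ne_one hc1
  obtain ⟨z, hz⟩ := h.sqrt (b / c) (by
    have e : b / c - 1 = (b - c) / c := by field_simp
    rw [e, norm_div, hc1, div_one]
    exact hbc)
  refine ⟨z, ?_⟩
  rw [div_eq_iff hc0] at hz
  rw [hz]
  ring

theorem unit_rep (h : OddLoc F) {a b : F} (ha : ‖a‖ = 1) (hb : ‖b‖ = 1) :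
    ∃ x y : F, b = x ^ 2 - a * y ^ 2 := by
  have := finite_KK h
  obtain ⟨p, q, hpq⟩ := exists_rep (two_KK h) (rs_ne_zero ha) (rs b hb.le)
  obtain ⟨x, hx, rfl⟩ := exists_rs p
  obtain ⟨y, hy, rfl⟩ := exists_rs q
  have h1 : ‖x ^ 2 - a * y ^ 2‖ ≤ 1 := by
    refine (nsub_le _ _).trans (max_le ?_ ?_)
    · rw [norm_pow]
      exact pow_le_one₀ (norm_nonneg _) hx
    · rw [norm_mul, ha, one_mul, norm_pow]
      exact pow_le_one₀ (norm_nonneg _) hy
  have h2 : rs (x ^ 2 - a * y ^ 2) h1 = rs x hx ^ 2 - rs a ha.le * rs y hy ^ 2 := by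
    simp only [rs, ← map_pow, ← map_mul, ← map_sub]
    rfl
  rw [← h2, rs_eq_iff] at hpq
  obtain ⟨z, hz⟩ := close_rep h hb h1 (by rw [← norm_neg, neg_sub]; exact hpq)
  exact ⟨x * z, y * z, by rw [hz]; ring⟩

/-- The norm form of an unramified quadratic extension. -/
theorem norm_unram (h : OddLoc F) {a : F} (ha : ‖a‖ = 1) (hns : ¬ IsSquare a) (x y : F) :
    ∃ z : F, ‖x ^ 2 - a * y ^ 2‖ = ‖z‖ ^ 2 := by
  have e1 : ‖a * y ^ 2‖ = ‖y‖ ^ 2 := by rw [norm_mul, ha, one_mul, norm_pow]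
  rcases lt_trichotomy ‖x‖ ‖y‖ with hlt | heq | hgt
  · refine ⟨y, ?_⟩
    have h1 : ‖x ^ 2‖ < ‖a * y ^ 2‖ := by
      rw [e1, norm_pow]
      exact pow_lt_pow_left₀ hlt (norm_nonneg _) two_ne_zero
    rw [← norm_neg, neg_sub, nsub_big h1, e1]
  · by_cases hy : y = 0
    · refine ⟨0, ?_⟩
      rw [hy, norm_zero, norm_eq_zero] at heq
      rw [heq, hy]
      simp
    · refine ⟨y, ?_⟩
      have hy0 : ‖y‖ ≠ 0 := norm_ne_zero_iff.mpr hy
      have e2 : x ^ 2 - a * y ^ 2 = y ^ 2 * ((x / y) ^ 2 - a) := by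
        field_simp
      have hxy : ‖x / y‖ = 1 := by rw [norm_div, heq, div_self hy0]
      have h2 : ‖(x / y) ^ 2 - a‖ = 1 := by
        apply le_antisymm
        · refine (nsub_le _ _).trans ?_
          rw [norm_pow, hxy, one_pow, ha, max_self]
        · by_contra hlt
          rw [not_le] at hlt
          obtain ⟨z, hz⟩ := close_rep h ha (c := (x / y) ^ 2) (by rw [norm_pow, hxy, one_pow])
            (by rw [← norm_neg, neg_sub]; exact hlt)
          exact hns ⟨x / y * z, by rw [hz]; ring⟩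
      rw [e2, norm_mul, h2, mul_one, norm_pow]
  · refine ⟨x, ?_⟩
    have h1 : ‖a * y ^ 2‖ < ‖x ^ 2‖ := by
      rw [e1, norm_pow]
      exact pow_lt_pow_left₀ hgt (norm_nonneg _) two_ne_zero
    rw [nsub_big h1, norm_pow]

theorem unit_LN (h : OddLoc F) {a : Fˣ} (ha : ‖(a : F)‖ = 1) (hns : ¬ IsSquare (a : F)) (b : Fˣ) :
    b ∈ LN a ↔ ∃ z : F, ‖(b : F)‖ = ‖z‖ ^ 2 := by
  constructor
  · rintro ⟨x, y, hxy⟩
    rw [hxy]
    exact norm_unram h ha hns x y
  · rintro ⟨z, hz⟩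
    have hz0 : z ≠ 0 := by
      rintro rfl
      rw [norm_zero, zero_pow two_ne_zero, norm_eq_zero] at hz
      exact b.ne_zero hz
    have hzn : ‖z‖ ≠ 0 := norm_ne_zero_iff.mpr hz0
    obtain ⟨x, y, hxy⟩ := unit_rep h ha (b := (b : F) / z ^ 2) (by
      rw [norm_div, hz, norm_pow]
      field_simp)
    refine ⟨x * z, y * z, ?_⟩
    rw [div_eq_iff (pow_ne_zero 2 hz0)] at hxy
    rw [hxy]
    ring

theorem odd_LN (h : OddLoc F) {a : Fˣ} (ha : ∀ z : F, ‖(a : F)‖ ≠ ‖z‖ ^ 2) (b : Fˣ) :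
    b ∈ LN a ↔ IsSquare (b : F) ∨ IsSquare (-(a : F) * b) := by
  have ha0 := a.ne_zero
  constructor
  · rintro ⟨x, y, hxy⟩
    by_cases hx : x = 0
    · right
      exact ⟨a * y, by rw [hxy, hx]; ring⟩
    by_cases hy : y = 0
    · left
      exact ⟨x, by rw [hxy, hy]; ring⟩
    have hxn : ‖x‖ ≠ 0 := norm_ne_zero_iff.mpr hx
    have hyn : ‖y‖ ≠ 0 := norm_ne_zero_iff.mpr hy
    have hne : ‖(a : F) * y ^ 2‖ ≠ ‖x ^ 2‖ := by
      intro h1
      apply ha (x / y)
      rw [norm_mul, norm_pow, norm_pow] at h1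
      rw [norm_div, div_pow, eq_div_iff (pow_ne_zero 2 hyn)]
      exact h1
    rcases lt_or_gt_of_ne hne with hlt | hgt
    · left
      obtain ⟨z, hz⟩ := h.sqrt ((b : F) / x ^ 2) (by
        have e : (b : F) / x ^ 2 - 1 = -((a : F) * y ^ 2) / x ^ 2 := by
          rw [hxy]
          field_simp
          ring
        rw [e, norm_div, norm_neg, div_lt_one (norm_pos_iff.mpr (pow_ne_zero 2 hx))]
        exact hlt)
      refine ⟨x * z, ?_⟩
      rw [div_eq_iff (pow_ne_zero 2 hx)] at hz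
      rw [hz]
      ring
    · right
      obtain ⟨z, hz⟩ := h.sqrt (-(b : F) / (a * y ^ 2)) (by
        have e : -(b : F) / (a * y ^ 2) - 1 = -(x ^ 2) / (a * y ^ 2) := by
          rw [hxy]
          field_simp
          ring
        rw [e, norm_div, norm_neg, div_lt_one (norm_pos_iff.mpr (mul_ne_zero ha0 (pow_ne_zero 2 hy)))]
        exact hgt)
      refine ⟨a * y * z, ?_⟩
      rw [div_eq_iff (mul_ne_zero ha0 (pow_ne_zero 2 hy))] at hz
      linear_combination (a : F) * hz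
  · rintro (⟨z, hz⟩ | ⟨z, hz⟩)
    · exact ⟨z, 0, by rw [hz]; ring⟩
    · refine ⟨0, z / a, ?_⟩
      field_simp
      linear_combination -hz

/-- Parity of valuations. -/
theorem ev_iff {ϖ : F} (h0 : ϖ ≠ 0) (h1 : ‖ϖ‖ < 1) (hd : ∀ x : F, x ≠ 0 → ∃ m : ℤ, ‖x‖ = ‖ϖ‖ ^ m)
    {b : F} {m : ℤ} (hb : ‖b‖ = ‖ϖ‖ ^ m) : (∃ z : F, ‖b‖ = ‖z‖ ^ 2) ↔ Even m := by
  have hpos : 0 < ‖ϖ‖ := norm_pos_iff.mpr h0
  constructor
  · rintro ⟨z, hz⟩
    have hz0 : z ≠ 0 := by
      rintro rfl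
      rw [norm_zero, zero_pow two_ne_zero, hb] at hz
      exact (zpow_ne_zero m hpos.ne') hz
    obtain ⟨j, hj⟩ := hd z hz0
    rw [hb, hj, ← zpow_natCast, ← zpow_mul] at hz
    have h2 := zpow_right_injective₀ hpos h1.ne hz
    exact ⟨j, by rw [h2]; push_cast; ring⟩
  · rintro ⟨j, rfl⟩
    refine ⟨ϖ ^ j, ?_⟩
    rw [hb, norm_zpow, sq, ← zpow_add₀ hpos.ne']

end

theorem OddLoc.two_ne {F : Type} [NormedField F] (h : OddLoc F) : (2 : F) ≠ 0 := by
  intro h0
  have := h.two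
  rw [h0, norm_zero] at this
  exact zero_ne_one this

/-- The scaling to valuations zero or one. -/
theorem OddLoc.cases {F : Type} [NormedField F] [IsUltrametricDist F] (a : Fˣ) :
    (∃ (a' u : Fˣ), a = a' * u ^ 2 ∧ ‖(a' : F)‖ = 1) ∨ ∀ z : F, ‖(a : F)‖ ≠ ‖z‖ ^ 2 := by
  by_cases h1 : ∃ z : F, ‖(a : F)‖ = ‖z‖ ^ 2
  · left
    obtain ⟨z, hz⟩ := h1
    have hz0 : z ≠ 0 := by
      rintro rfl
      rw [norm_zero, zero_pow two_ne_zero, norm_eq_zero] at hz
      exact a.ne_zero hz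
    refine ⟨a / (Units.mk0 z hz0) ^ 2, Units.mk0 z hz0, by rw [div_mul_cancel], ?_⟩
    rw [Units.val_div_eq_div_val, Units.val_pow_eq_pow_val, Units.val_mk0, norm_div, hz, norm_pow,
      div_self (pow_ne_zero 2 (norm_ne_zero_iff.mpr hz0))]
  · right
    push Not at h1
    exact h1

theorem OddLoc.index {F : Type} [NormedField F] (h : OddLoc F) (a : Fˣ)
    (ha : ¬ IsSquare (a : F)) : (LN a).index = 2 := by
  have := h.ultra
  obtain ⟨ϖ, h0, h1, hd⟩ := h.disc
  have hpos : 0 < ‖ϖ‖ := norm_pos_iff.mpr h0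
  rcases OddLoc.cases a with ⟨a', u, rfl, ha1⟩ | hodd
  · have ha' : ¬ IsSquare (a' : F) := by
      rintro ⟨z, hz⟩
      apply ha
      refine ⟨z * u, ?_⟩
      push_cast
      rw [hz]
      ring
    rw [LN_mul_sq, Subgroup.index_eq_two_iff]
    refine ⟨Units.mk0 ϖ h0, fun b => ?_⟩
    obtain ⟨m, hm⟩ := hd b b.ne_zero
    rw [xor_iff_iff_not, unit_LN h ha1 ha', unit_LN h ha1 ha', ev_iff h0 h1 hd hm,
      ev_iff h0 h1 hd (m := m + 1), Int.even_add_one]
    rw [Units.val_mul, Units.val_mk0, norm_mul, hm, zpow_add_one₀ hpos.ne']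
  · obtain ⟨e, he, hes⟩ := exists_unit_nonsq h
    have he0 : e ≠ 0 := by
      rintro rfl
      rw [norm_zero] at he
      exact zero_ne_one he
    -- squares among the elements of even valuation
    have hsq : ∀ b : F, b ≠ 0 → (∃ z : F, ‖b‖ = ‖z‖ ^ 2) → (IsSquare (b * e) ↔ ¬ IsSquare b) := by
      intro b hb ⟨z, hz⟩
      have hz0 : z ≠ 0 := by
        rintro rfl
        rw [norm_zero, zero_pow two_ne_zero, norm_eq_zero] at hz
        exact hb hz
      have hu : ‖b / z ^ 2‖ = 1 := by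
        rw [norm_div, hz, norm_pow, div_self (pow_ne_zero 2 (norm_ne_zero_iff.mpr hz0))]
      have e1 : IsSquare (b / z ^ 2) ↔ IsSquare b := by
        constructor
        · rintro ⟨w, hw⟩
          refine ⟨w * z, ?_⟩
          rw [div_eq_iff (pow_ne_zero 2 hz0)] at hw
          rw [hw]
          ring
        · rintro ⟨w, rfl⟩
          exact ⟨w / z, by field_simp⟩
      constructor
      · rintro h2 h3
        obtain ⟨w, hw⟩ := h3
        obtain ⟨r, hr⟩ := h2
        apply hes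
        have hw0 : w ≠ 0 := by
          rintro rfl
          rw [mul_zero] at hw
          exact hb hw
        refine ⟨r / w, ?_⟩
        have h4 : e = r * r / b := by
          rw [← hr]
          field_simp
        rw [h4, hw]
        field_simp
      · intro h3
        rw [← e1] at h3
        obtain ⟨w, hw⟩ := unit_mul h hu he h3 hes
        refine ⟨w * z, ?_⟩
        have h4 : b * e = (b / z ^ 2 * e) * z ^ 2 := by field_simp
        rw [h4, hw]
        ring
    have hns : ∀ b : F, (∀ z : F, ‖b‖ ≠ ‖z‖ ^ 2) → ¬ IsSquare b := by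
      rintro b hb ⟨z, rfl⟩
      exact hb z (by rw [norm_mul, sq])
    rw [Subgroup.index_eq_two_iff]
    refine ⟨Units.mk0 e he0, fun b => ?_⟩
    rw [xor_iff_iff_not, odd_LN h hodd, odd_LN h hodd, Units.val_mul, Units.val_mk0]
    obtain ⟨m, hm⟩ := hd b b.ne_zero
    obtain ⟨j, hj⟩ := hd a a.ne_zero
    have hjo : ¬ Even j := by
      intro h2
      obtain ⟨z, hz⟩ := (ev_iff h0 h1 hd hj).mpr h2
      exact hodd z hz
    have hab : ‖-(a : F) * b‖ = ‖ϖ‖ ^ (j + m) := by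
      rw [norm_mul, norm_neg, hj, hm, zpow_add₀ hpos.ne']
    have hab0 : -(a : F) * b ≠ 0 := mul_ne_zero (neg_ne_zero.mpr a.ne_zero) b.ne_zero
    by_cases hev : Even m
    · have hb := (ev_iff h0 h1 hd hm).mpr hev
      have h3 : ∀ z : F, ‖-(a : F) * b‖ ≠ ‖z‖ ^ 2 := by
        intro z hz
        have := (ev_iff h0 h1 hd hab).mp ⟨z, hz⟩
        rw [Int.even_add] at this
        exact hjo (this.mpr hev)
      have h4 : ∀ z : F, ‖-(a : F) * (b * e)‖ ≠ ‖z‖ ^ 2 := by
        intro z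
        rw [← mul_assoc, norm_mul, he, mul_one]
        exact h3 z
      rw [or_iff_left (hns _ h3), or_iff_left (hns _ h4)]
      exact hsq b b.ne_zero hb
    · have hb : ∀ z : F, ‖(b : F)‖ ≠ ‖z‖ ^ 2 := fun z hz =>
        hev ((ev_iff h0 h1 hd hm).mp ⟨z, hz⟩)
      have hbe : ∀ z : F, ‖(b : F) * e‖ ≠ ‖z‖ ^ 2 := by
        intro z
        rw [norm_mul, he, mul_one]
        exact hb z
      rw [or_iff_right (hns _ hb), or_iff_right (hns _ hbe), ← mul_assoc]
      refine hsq _ hab0 ((ev_iff h0 h1 hd hab).mpr ?_)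
      rw [Int.even_add]
      exact iff_of_false hjo hev

theorem OddLoc.inj {F : Type} [NormedField F] (h : OddLoc F) (a b : Fˣ) (hab : LN a = LN b) :
    IsSquare ((a * b : Fˣ) : F) := by
  by_contra hns
  have h2 := h.index (a * b) hns
  have htop : LN (a * b) = ⊤ := by
    rw [eq_top_iff]
    intro c _
    rw [LN_symm_iff h.two_ne]
    have h3 : a ∈ LN c ↔ b ∈ LN c := by
      rw [LN_symm_iff h.two_ne, hab, LN_symm_iff h.two_ne]
    by_cases hc : IsSquare (c : F)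
    · rw [LN_of_isSquare h.two_ne hc]; trivial
    · rw [Subgroup.mul_mem_iff_of_index_two (h.index c hc)]
      exact h3
  rw [htop, Subgroup.index_top] at h2
  exact absurd h2 (by norm_num)

theorem OddLoc.cone {F : Type} [NormedField F] (h : OddLoc F) (a : Fˣ)
    (ha : ¬ IsSquare (a : F)) :
    ∃ b ∈ LN a, ∃ c ∈ LN a, ∃ g : Fˣ, g ∉ LN a ∧ (g : F) = b + c := by
  have := h.ultra
  obtain ⟨ϖ, h0, h1, hd⟩ := h.disc
  have hpos : 0 < ‖ϖ‖ := norm_pos_iff.mpr h0
  rcases OddLoc.cases a with ⟨a', u, rfl, ha1⟩ | hodd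
  · have ha' : ¬ IsSquare (a' : F) := by
      rintro ⟨z, hz⟩
      apply ha
      refine ⟨z * u, ?_⟩
      push_cast
      rw [hz]
      ring
    have hw : ‖ϖ - 1‖ = 1 := by
      rw [← norm_neg, neg_sub, nsub_big (by rwa [norm_one]), norm_one]
    have hw0 : ϖ - 1 ≠ 0 := by
      intro h2
      rw [h2, norm_zero] at hw
      exact zero_ne_one hw
    refine ⟨1, one_mem _, Units.mk0 _ hw0, ?_, Units.mk0 ϖ h0, ?_, ?_⟩
    · rw [LN_mul_sq, unit_LN h ha1 ha']
      exact ⟨1, by rw [Units.val_mk0, hw, norm_one, one_pow]⟩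
    · rw [LN_mul_sq, unit_LN h ha1 ha', Units.val_mk0, ev_iff h0 h1 hd (m := 1) (by rw [zpow_one])]
      exact Int.not_even_one
    · rw [Units.val_mk0, Units.val_mk0, Units.val_one]
      ring
  · obtain ⟨e, he, hes⟩ := exists_unit_nonsq h
    obtain ⟨x, y, hxy⟩ := unit_rep h (a := -1) (b := e) (by rw [norm_neg, norm_one]) he
    have hxy' : e = x ^ 2 + y ^ 2 := by rw [hxy]; ring
    have hx0 : x ≠ 0 := by
      rintro rfl
      exact hes ⟨y, by rw [hxy']; ring⟩
    have hy0 : y ≠ 0 := by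
      rintro rfl
      exact hes ⟨x, by rw [hxy']; ring⟩
    have he0 : e ≠ 0 := by
      rintro rfl
      rw [norm_zero] at he
      exact zero_ne_one he
    refine ⟨(Units.mk0 x hx0) ^ 2, sq_mem_LN _ _, (Units.mk0 y hy0) ^ 2, sq_mem_LN _ _,
      Units.mk0 e he0, ?_, ?_⟩
    · rw [odd_LN h hodd]
      rintro (h2 | ⟨z, hz⟩)
      · exact hes h2
      · apply hodd z
        have h3 := congrArg norm hz
        rw [norm_mul, norm_neg, Units.val_mk0, he, mul_one, norm_mul] at h3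
        rw [h3, sq]
    · rw [Units.val_mk0, Units.val_pow_eq_pow_val, Units.val_pow_eq_pow_val, Units.val_mk0,
        Units.val_mk0]
      exact hxy'

/-- **The norm index theorem**: odd residue characteristic. -/
theorem OddLoc.indexTwo {F : Type} [NormedField F] (h : OddLoc F) : IndexTwo F where
  two := h.index
  inj := h.inj
  cone := h.cone

end Vale.Agent.P011.H929.E
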