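import Vale.Agent.P011.H929.E.Model
import Vale.Agent.P011.H929.E.Herm

/-!
Values of hermitian forms with split minimal polynomials at a place which does not split, over
function fields.
-/

open Module Matrix TensorProduct Polynomial

set_option linter.unusedSectionVars false

namespace Vale.Agent.P011.H929.E

open Vale.Agent.P011.H738 Vale.Agent.P011.H271 Vale.Agent.P011.H305 Vale.Agent.P011.Even

theorem binUniv_quad {F L : Type} [Field F] (hF : IndexTwo F) [Field L] [Algebra F L] [StarRing L]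
    (h2 : (2 : L) ≠ 0) (hfix : ∀ x : L, star x = x ↔ x ∈ Set.range (algebraMap F L))
    (hL : Module.finrank F L = 2) : BinUniv L := by
  obtain ⟨s, hs0, hs⟩ : ∃ s : L, s ≠ 0 ∧ star s = -s := by
    by_contra hcon
    push Not at hcon
    have h1 : ∀ x : L, star x = x := by
      intro x
      by_contra hx
      apply hcon (x - star x) (fun h => hx (sub_eq_zero.mp h).symm)
      rw [star_sub, star_star, neg_sub]
    have h2 : Function.Surjective (algebraMap F L) := fun x => (hfix x).mp (h1 x)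
    have h3 : Module.finrank F L = 1 := by
      rw [finrank_eq_one_iff']
      refine ⟨1, one_ne_zero, fun w => ?_⟩
      obtain ⟨c, rfl⟩ := h2 w
      exact ⟨c, by rw [Algebra.smul_def, mul_one]⟩
    omega
  obtain ⟨d, hd⟩ := (hfix (s ^ 2)).mp (by rw [star_pow, hs, neg_sq])
  have hd0 : d ≠ 0 := by
    rintro rfl
    rw [map_zero, eq_comm] at hd
    exact hs0 (pow_eq_zero_iff two_ne_zero |>.mp hd)
  refine binUniv hF hfix (d := Units.mk0 d hd0) (s := s) ?_ hd.symm hs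
  rintro ⟨c, hc⟩
  rw [Units.val_mk0] at hc
  rw [hc, map_mul, ← sq, sq_eq_sq_iff_eq_or_eq_neg] at hd
  have h3 : star s = s := by
    rcases hd with h | h
    · rw [← h]; exact (hfix _).mpr ⟨c, rfl⟩
    · rw [← neg_eq_iff_eq_neg] at h
      rw [← h, star_neg, (hfix _).mpr ⟨c, rfl⟩]
  rw [hs, neg_eq_iff_add_eq_zero, ← two_mul] at h3
  exact (mul_ne_zero h2 hs0) h3

/-- The map of unit groups. -/
noncomputable def iuv {k : Type} [Field k] (v : Place k) : kˣ →* v.compˣ :=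
  Units.map (algebraMap k v.comp : k →* v.comp)

theorem val_iuv {k : Type} [Field k] (v : Place k) (a : kˣ) :
    ((iuv v a : v.compˣ) : v.comp) = algebraMap k v.comp (a : k) := rfl

variable {k K D : Type} [Field k] [Field K] [StarRing K] [DivisionRing D] [StarRing D]
  [Algebra k K] [Algebra k D] [Algebra K D] [IsScalarTower k K D] {d : kˣ} {s : K} {n : ℕ}

/-- Values of hermitian forms with split minimal polynomials at a place which does not split. -/
theorem loc_split [GFF k] (hS : SetF k K D d s)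
    (hn : Module.finrank K D = n ^ 2) (v : Place k)
    (hv : ¬ IsSquare (algebraMap k v.comp (d : k))) {c0 c2 : D}
    (h0 : star c0 = c0) (h2 : star c2 = c2) (h00 : c0 ≠ 0) (h20 : c2 ≠ 0) :
    ∃ (r : Fin n → k) (T : v.comp ⊗[k] D), Function.Injective r ∧
      LinearIndependent v.comp (fun i : Fin n => ((1 ⊗ₜ c0⁻¹) * T * (1 ⊗ₜ c2) *
        hS.sig.baseChange v.comp T) ^ (i : ℕ)) ∧
      Polynomial.aeval ((1 ⊗ₜ c0⁻¹) * T * (1 ⊗ₜ c2) *
        hS.sig.baseChange v.comp T)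
          (∏ i, (X - C (algebraMap k v.comp (r i)))) = 0 := by
  have : Infinite k := H698.infinite_of_place v
  let F := v.comp
  obtain ⟨L, _, _, _, ρ, -, G, hfix, hL2, hGu, hGs, hG, -, -, -⟩ := exists_model hS hn v hv
  have hσ : ∀ x, hS.sig x = star x := fun x => rfl
  have hGd : IsUnit G.det := (Matrix.isUnit_iff_isUnit_det G).mp hGu
  have hGG : G * G⁻¹ = 1 := Matrix.mul_nonsing_inv _ hGd
  have hGG' : G⁻¹ * G = 1 := Matrix.nonsing_inv_mul _ hGd
  have hGis : (G⁻¹)ᴴ = G⁻¹ := by rw [Matrix.conjTranspose_nonsing_inv, hGs]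
  have hunit : ∀ c : D, c ≠ 0 → ρ (1 ⊗ₜ c) * ρ (1 ⊗ₜ c⁻¹) = 1 := by
    intro c hc
    rw [← map_mul, Algebra.TensorProduct.tmul_mul_tmul, one_mul, mul_inv_cancel₀ hc,
      ← Algebra.TensorProduct.one_def, map_one]
  have hdet : ∀ c : D, c ≠ 0 → (ρ (1 ⊗ₜ c)).det ≠ 0 := by
    intro c hc hd0
    have h1 := congrArg Matrix.det (hunit c hc)
    rw [Matrix.det_mul, hd0, zero_mul, Matrix.det_one] at h1
    exact zero_ne_one h1
  have hherm : ∀ c : D, star c = c → (ρ (1 ⊗ₜ c) * G⁻¹)ᴴ = ρ (1 ⊗ₜ c) * G⁻¹ := by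
    intro c hc
    have h1 := hG (1 ⊗ₜ c)
    rw [LinearMap.baseChange_tmul, hσ, hc] at h1
    rw [Matrix.conjTranspose_mul, hGis]
    calc G⁻¹ * (ρ (1 ⊗ₜ c))ᴴ = G⁻¹ * ((ρ (1 ⊗ₜ c))ᴴ * G) * G⁻¹ := by
          rw [Matrix.mul_assoc G⁻¹, Matrix.mul_assoc _ G, hGG, Matrix.mul_one]
      _ = G⁻¹ * (G * ρ (1 ⊗ₜ c)) * G⁻¹ := by rw [h1]
      _ = ρ (1 ⊗ₜ c) * G⁻¹ := by rw [← Matrix.mul_assoc, hGG', Matrix.one_mul]
  have hGid : (G⁻¹).det ≠ 0 := by
    intro h
    have h1 := congrArg Matrix.det hGG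
    rw [Matrix.det_mul, h, mul_zero, Matrix.det_one] at h1
    exact zero_ne_one h1
  have h2L : (2 : L) ≠ 0 := by
    rw [← map_ofNat (algebraMap F L) 2]
    exact (_root_.map_ne_zero _).mpr (norm_ne_zero_iff.mp (by rw [norm_two hS.two_ne v]; exact one_ne_zero))
  obtain ⟨ρ', hρ'⟩ := diag_pair h2L (binUniv_quad (indexTwo hS.two_ne v) h2L hfix hL2) hfix (ρ (1 ⊗ₜ c0) * G⁻¹) (ρ (1 ⊗ₜ c2) * G⁻¹)
    (hherm c0 h0) (hherm c2 h2) (by rw [Matrix.det_mul]; exact mul_ne_zero (hdet c0 h00) hGid)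
    (by rw [Matrix.det_mul]; exact mul_ne_zero (hdet c2 h20) hGid)
  choose a u hau using fun i => exists_glob hS.two_ne v (ρ' i)
  obtain ⟨r, hr, hrm⟩ := exists_injective_choice n
    (fun i => Set.range fun m : kˣ => a i * m ^ 2) fun i => infinite_sq (a i)
  choose m hm using hrm
  have hl : ∀ i, ρ' i * (iuv v (m i) * (u i)⁻¹) ^ 2 = iuv v (r i) := by
    intro i
    rw [← hm i, hau i, map_mul, map_pow, mul_pow, inv_pow]
    calc iuv v (a i) * u i ^ 2 * (iuv v (m i) ^ 2 * (u i ^ 2)⁻¹)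
        = iuv v (a i) * iuv v (m i) ^ 2 * (u i ^ 2 * (u i ^ 2)⁻¹) := by
          simp only [mul_comm, mul_assoc, mul_left_comm]
      _ = iuv v (a i) * iuv v (m i) ^ 2 := by rw [mul_inv_cancel, mul_one]
  obtain ⟨X, hX, hX'⟩ := hρ' (fun i => iuv v (m i) * (u i)⁻¹) (by
    intro i j hij
    simp only [hl] at hij
    have h1 := congrArg Units.val hij
    exact hr (Units.ext ((algebraMap k F).injective h1)))
  simp only [hl] at hX'
  set Y := (ρ (1 ⊗ₜ c0) * G⁻¹)⁻¹ * X * (ρ (1 ⊗ₜ c2) * G⁻¹) * Xᴴ with hY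
  let φ : Matrix (Fin n) (Fin n) L →ₐ[F] F ⊗[k] D :=
    { toFun := fun M => ρ.symm (G⁻¹ * M * G)
      map_one' := by rw [Matrix.mul_one, hGG', map_one]
      map_mul' := fun M N => by
        rw [← map_mul]
        congr 1
        calc G⁻¹ * (M * N) * G = G⁻¹ * M * (G * G⁻¹) * N * G := by
              rw [hGG, Matrix.mul_one, ← Matrix.mul_assoc]
          _ = G⁻¹ * M * G * (G⁻¹ * N * G) := by simp only [Matrix.mul_assoc]
      map_zero' := by rw [Matrix.mul_zero, Matrix.zero_mul, map_zero]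
      map_add' := fun M N => by rw [Matrix.mul_add, Matrix.add_mul, map_add]
      commutes' := fun c => by
        change ρ.symm (G⁻¹ * algebraMap F _ c * G) = _
        rw [← Algebra.commutes c G⁻¹, Matrix.mul_assoc, hGG', Matrix.mul_one,
          AlgEquiv.commutes] }
  have hW : (1 ⊗ₜ c0⁻¹) * ρ.symm X * (1 ⊗ₜ c2) * hS.sig.baseChange F (ρ.symm X) = φ Y := by
    apply ρ.injective
    change _ = ρ (ρ.symm (G⁻¹ * Y * G))
    rw [AlgEquiv.apply_symm_apply, map_mul, map_mul, map_mul, AlgEquiv.apply_symm_apply]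
    have h1 : ρ (hS.sig.baseChange F (ρ.symm X)) = G⁻¹ * (Xᴴ * G) := by
      have := hG (ρ.symm X)
      rw [AlgEquiv.apply_symm_apply] at this
      rw [← this, ← Matrix.mul_assoc, hGG', Matrix.one_mul]
    have h3 : (ρ (1 ⊗ₜ c0) * G⁻¹)⁻¹ = G * ρ (1 ⊗ₜ c0⁻¹) := by
      apply Matrix.inv_eq_right_inv
      rw [Matrix.mul_assoc, ← Matrix.mul_assoc G⁻¹, hGG', Matrix.one_mul, hunit c0 h00]
    rw [h1, hY, h3]
    calc ρ (1 ⊗ₜ c0⁻¹) * X * ρ (1 ⊗ₜ c2) * (G⁻¹ * (Xᴴ * G))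
        = (G⁻¹ * G) * (ρ (1 ⊗ₜ c0⁻¹) * X * ρ (1 ⊗ₜ c2) * (G⁻¹ * (Xᴴ * G))) := by
          rw [hGG', Matrix.one_mul]
      _ = G⁻¹ * (G * ρ (1 ⊗ₜ c0⁻¹) * X * (ρ (1 ⊗ₜ c2) * G⁻¹) * Xᴴ) * G := by
          simp only [Matrix.mul_assoc]
  refine ⟨fun i => r i, ρ.symm X, fun i j hij => hr (Units.ext hij), ?_, ?_⟩
  · have h1 : LinearIndependent F (fun i : Fin n => Y ^ (i : ℕ)) := by
      refine hX.restrict_scalars ?_
      intro x y hxy
      have h4 : algebraMap F L x = algebraMap F L y := by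
        rw [Algebra.algebraMap_eq_smul_one, Algebra.algebraMap_eq_smul_one]
        exact hxy
      exact (algebraMap F L).injective h4
    have h4 : Function.Injective φ := by
      intro M N hMN
      have h5 := ρ.symm.injective (show ρ.symm (G⁻¹ * M * G) = ρ.symm (G⁻¹ * N * G) from hMN)
      have h6 := congrArg (fun Z => G * Z * G⁻¹) h5
      simp only [← Matrix.mul_assoc, hGG, Matrix.one_mul] at h6
      simpa only [Matrix.mul_assoc, hGG, Matrix.mul_one] using h6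
    have h5 := h1.map' φ.toLinearMap (LinearMap.ker_eq_bot.mpr h4)
    have h6 : (fun i : Fin n => ((1 ⊗ₜ c0⁻¹) * ρ.symm X * (1 ⊗ₜ c2) *
        hS.sig.baseChange F (ρ.symm X)) ^ (i : ℕ)) =
        (φ.toLinearMap ∘ fun i : Fin n => Y ^ (i : ℕ)) := by
      funext i
      rw [hW]
      change _ = φ (Y ^ (i : ℕ))
      rw [map_pow]
    exact h6 ▸ h5
  · rw [hW, Polynomial.aeval_algHom_apply]
    have h1 : aeval Y (∏ i, (Polynomial.X - C (algebraMap k F (r i : k)))) =
        aeval Y (∏ i, (Polynomial.X - C (algebraMap F L (iuv v (r i) : Fˣ)))) := by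
      rw [← Polynomial.aeval_map_algebraMap L Y, Polynomial.map_prod]
      congr 1
      refine Finset.prod_congr rfl fun i _ => ?_
      rw [Polynomial.map_sub, Polynomial.map_X, Polynomial.map_C]
      rfl
    rw [h1, hX', map_zero]

end Vale.Agent.P011.H929.E
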